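import Vale.Agent.P130.Main

/-! An invertible measure preserving transformation of a standard nonatomic probability space
with simple Lebesgue spectrum. -/

open MeasureTheory

theorem Vale.Agent.Results.P130.SimpleLebesgue.result :
    ∃ (X : Type) (_ : MeasurableSpace X) (_ : StandardBorelSpace X) (μ : Measure X)
      (_ : IsProbabilityMeasure μ) (T : X ≃ᵐ X) (f : Lp ℂ 2 μ) (b : ℤ → Lp ℂ 2 μ),
      (∀ x, μ {x} = 0) ∧ MeasurePreserving T μ μ ∧
      ∫ x, f x ∂μ = 0 ∧
      (∀ n : ℤ, b n =ᵐ[μ] fun x => f ((T.toEquiv ^ n : Equiv.Perm X) x)) ∧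
      Orthonormal ℂ b ∧
      ∀ g : Lp ℂ 2 μ,
        g ∈ (Submodule.span ℂ (Set.range b)).topologicalClosure ↔ ∫ x, g x ∂μ = 0 := by
  obtain ⟨μ, hμ, hna, hT, f, b, h1, h2, h3⟩ := Vale.Agent.P130.main
  refine ⟨Vale.Agent.P130.Sp, inferInstance, inferInstance, μ, hμ, Vale.Agent.P130.shift,
    f, b, hna, hT, ?_, fun n => ?_, h2, h3⟩
  · have h4 := (h3 (b 0)).1
      (Submodule.le_topologicalClosure _ (Submodule.subset_span ⟨0, rfl⟩))
    rw [integral_congr_ae (h1 0)] at h4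
    simpa [Vale.Agent.P130.sh_zero] using h4
  · simp only [Vale.Agent.P130.shift_zpow]
    exact h1 n
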